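import Mathlib

/-!
P022, block [LN], first half: fixed units of a finite ring with a free cyclic action are norms.
-/

open Finset

noncomputable section

namespace Vale.Agent.P022.H648

variable {A : Type*} [CommRing A]

/-- the partial products `w · s w ⋯ s^(i-1) w` -/
def pp (s : A ≃+* A) (w : A) (i : ℕ) : A := ∏ j ∈ range i, (s ^ j) w

lemma pp_zero (s : A ≃+* A) (w : A) : pp s w 0 = 1 := by simp [pp]

lemma pp_succ (s : A ≃+* A) (w : A) (i : ℕ) : w * s (pp s w i) = pp s w (i + 1) := by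
  unfold pp
  rw [Finset.prod_range_succ', map_prod, pow_zero, RingAut.one_apply, mul_comm]
  congr 1
  refine Finset.prod_congr rfl fun j _ => ?_
  rw [pow_succ', RingAut.mul_apply]

/-- the solution of `e = w · s e` -/
def ee (s : A ≃+* A) (n : ℕ) (w x : A) : A := ∑ i ∈ range n, pp s w i * (s ^ i) x

lemma ee_eq (s : A ≃+* A) {n : ℕ} (hs : s ^ n = 1) {w : A} (hw : pp s w n = 1) (x : A) :
    w * s (ee s n w x) = ee s n w x := by
  have h1 : w * s (ee s n w x) = ∑ i ∈ range n, pp s w (i + 1) * (s ^ (i + 1)) x := by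
    unfold ee
    rw [map_sum, Finset.mul_sum]
    refine Finset.sum_congr rfl fun i _ => ?_
    rw [map_mul, ← mul_assoc, pp_succ, pow_succ', RingAut.mul_apply]
  have h2 := Finset.sum_range_succ' (fun i => pp s w i * (s ^ i) x) n
  have h3 := Finset.sum_range_succ (fun i => pp s w i * (s ^ i) x) n
  rw [h1]
  unfold ee
  have h4 : pp s w n * (s ^ n) x = pp s w 0 * (s ^ 0) x := by
    rw [hw, hs, pp_zero, pow_zero]
  rw [h4] at h3
  have h5 := h2.symm.trans h3
  exact add_right_cancel h5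

/-- the hypotheses: a cyclic action of order `n`, transitive on the maximal ideals, free on
`m₀` -/
structure Fr (s : A ≃+* A) (n : ℕ) (m₀ : Ideal A) : Prop where
  pos : 0 < n
  one : s ^ n = 1
  pr : m₀.IsPrime
  tr : ∀ m : Ideal A, m.IsMaximal → ∃ i : ℕ, ∀ x, x ∈ m → (s ^ i) x ∈ m₀
  free : ∀ i, 0 < i → i < n → ∃ x, (s ^ i) x - x ∉ m₀

lemma exists_ee {s : A ≃+* A} {n : ℕ} {m₀ : Ideal A} (h : Fr s n m₀) (w : A) :
    ∃ x, ee s n w x ∉ m₀ := by
  classical
  have := h.pr
  by_contra hc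
  push Not at hc
  -- the characters `x ↦ s^i x mod m₀`
  let χ : ℕ → (A →* (A ⧸ m₀)) := fun i =>
    ((Ideal.Quotient.mk m₀).comp (s ^ i : A ≃+* A).toRingHom : A →+* A ⧸ m₀)
  have hχ : ∀ i x, χ i x = Ideal.Quotient.mk m₀ ((s ^ i) x) := fun i x => rfl
  have hinj : Set.InjOn χ (range n) := by
    intro i hi j hj hij
    have key : ∀ i j, i < j → j < n → χ i ≠ χ j := by
      intro i j h1 h2 h3
      obtain ⟨x, hx⟩ := h.free (j - i) (by omega) (by omega)
      apply hx
      have h4 : χ i ((s ^ i).symm x) = χ j ((s ^ i).symm x) := by rw [h3]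
      rw [hχ, hχ] at h4
      have h5 : (s ^ i) ((s ^ i).symm x) = x := RingEquiv.apply_symm_apply _ _
      have h6 : (s ^ j) ((s ^ i).symm x) = (s ^ (j - i)) x := by
        have : s ^ j = s ^ (j - i) * s ^ i := by rw [← pow_add]; congr 1; omega
        rw [this, RingAut.mul_apply, h5]
      rw [h5, h6] at h4
      exact (Ideal.Quotient.eq).1 h4.symm
    rcases lt_trichotomy i j with h1 | h1 | h1
    · exact absurd hij (key i j h1 (by simpa using hj))
    · exact h1
    · exact absurd hij.symm (key j i h1 (by simpa using hi))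
  have hli := linearIndependent_monoidHom A (A ⧸ m₀)
  have hinj' : Function.Injective (fun i : Fin n => χ i) := fun i j hij =>
    Fin.ext (hinj (by simp) (by simp) hij)
  have hlin := hli.comp (fun i : Fin n => χ i) hinj'
  rw [Fintype.linearIndependent_iff] at hlin
  have h0 : ∑ i : Fin n, (Ideal.Quotient.mk m₀ (pp s w i)) •
      ((fun f : A →* (A ⧸ m₀) => (f : A → A ⧸ m₀)) ∘ fun i : Fin n => χ i) i = 0 := by
    funext x
    have h1 := hc x
    rw [Finset.sum_apply]
    have h2 : Ideal.Quotient.mk m₀ (ee s n w x) = 0 := Ideal.Quotient.eq_zero_iff_mem.2 h1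
    unfold ee at h2
    rw [map_sum, Finset.sum_range] at h2
    simp only [Pi.smul_apply, Function.comp_apply, smul_eq_mul, Pi.zero_apply]
    rw [← h2]
    refine Finset.sum_congr rfl fun i _ => ?_
    rw [map_mul, hχ]
  have h1 := hlin _ h0 ⟨0, h.pos⟩
  rw [pp_zero, map_one] at h1
  exact one_ne_zero h1

/-- Hilbert 90 -/
lemma h90 {s : A ≃+* A} {n : ℕ} {m₀ : Ideal A} (h : Fr s n m₀) {w : A} (hw : pp s w n = 1) :
    ∃ e : A, IsUnit e ∧ w * s e = e := by
  obtain ⟨x, hx⟩ := exists_ee h w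
  refine ⟨ee s n w x, ?_, ee_eq s h.one hw x⟩
  have hwu : IsUnit w := by
    obtain ⟨k, rfl⟩ : ∃ k, n = k + 1 := ⟨n - 1, by have := h.pos; omega⟩
    have : w * s (pp s w k) = 1 := by rw [pp_succ, hw]
    exact IsUnit.of_mul_eq_one _ this
  have key : ∀ i, (s ^ i) (ee s n w x) ∈ m₀ → ee s n w x ∈ m₀ := by
    intro i
    induction i with
    | zero => intro hi; simpa using hi
    | succ i ih =>
      intro hi
      apply ih
      have h1 : (s ^ i) (ee s n w x) = (s ^ i) w * (s ^ (i + 1)) (ee s n w x) := by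
        conv_lhs => rw [← ee_eq s h.one hw x]
        rw [map_mul, pow_succ, RingAut.mul_apply]
      rw [h1]
      exact Ideal.mul_mem_left _ _ hi
  by_contra hu
  obtain ⟨m, hm, hxm⟩ := exists_max_ideal_of_mem_nonunits (a := ee s n w x) hu
  obtain ⟨i, hi⟩ := h.tr m hm
  exact hx (key i (hi _ hxm))

/-- the norm on units -/
def Nu (s : A ≃+* A) (n : ℕ) : Aˣ →* Aˣ where
  toFun w := ∏ i ∈ range n, Units.map ((s ^ i : A ≃+* A) : A →* A) w
  map_one' := by simp
  map_mul' x y := by simp [Finset.prod_mul_distrib]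

lemma Nu_val (s : A ≃+* A) (n : ℕ) (w : Aˣ) : ((Nu s n w : Aˣ) : A) = pp s w n := by
  unfold pp
  simp [Nu]

/-- `e ↦ e / s e` -/
def Du (s : A ≃+* A) : Aˣ →* Aˣ where
  toFun e := e * (Units.map (s : A →* A) e)⁻¹
  map_one' := by simp
  map_mul' x y := by
    simp only [map_mul, mul_inv_rev]
    rw [mul_comm (Units.map (s : A →* A) y)⁻¹]
    exact mul_mul_mul_comm _ _ _ _

lemma mem_ker_Du (s : A ≃+* A) (e : Aˣ) : e ∈ (Du s).ker ↔ s e = e := by
  rw [MonoidHom.mem_ker]
  change e * (Units.map (s : A →* A) e)⁻¹ = 1 ↔ _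
  rw [mul_inv_eq_one, Units.ext_iff]
  exact ⟨fun h => h.symm, fun h => h.symm⟩

lemma Nu_mem_ker {s : A ≃+* A} {n : ℕ} (hs : s ^ n = 1) (w : Aˣ) :
    Nu s n w ∈ (Du s).ker := by
  rw [mem_ker_Du, Nu_val]
  have h1 : (w : A) * s (pp s w n) = pp s w n * w := by
    rw [pp_succ]
    unfold pp
    rw [Finset.prod_range_succ, hs]
    rfl
  rw [mul_comm] at h1
  exact w.isUnit.mul_right_cancel h1

/-- **fixed units are norms** -/
theorem fixed_norm [Finite A] {s : A ≃+* A} {n : ℕ} {m₀ : Ideal A} (h : Fr s n m₀) {a : A}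
    (ha : IsUnit a) (hfix : s a = a) : ∃ y : A, ∏ i ∈ range n, (s ^ i) y = a := by
  classical
  have : Finite Aˣ := inferInstance
  have hle : (Nu s n).ker ≤ (Du s).range := by
    intro w hw
    rw [MonoidHom.mem_ker, Units.ext_iff, Nu_val] at hw
    obtain ⟨e, he, hwe⟩ := h90 h hw
    refine ⟨he.unit, ?_⟩
    change he.unit * (Units.map (s : A →* A) he.unit)⁻¹ = w
    rw [mul_inv_eq_iff_eq_mul, Units.ext_iff]
    exact hwe.symm
  have hle2 : (Nu s n).range ≤ (Du s).ker := by
    rintro _ ⟨w, rfl⟩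
    exact Nu_mem_ker h.one w
  have c1 : Nat.card (Nu s n).ker ≤ Nat.card (Du s).range :=
    Nat.card_le_card_of_injective _ (Subgroup.inclusion_injective hle)
  have c2 : Nat.card Aˣ = Nat.card (Nu s n).range * Nat.card (Nu s n).ker := by
    rw [← Subgroup.index_ker, Subgroup.index_mul_card]
  have c3 : Nat.card Aˣ = Nat.card (Du s).range * Nat.card (Du s).ker := by
    rw [← Subgroup.index_ker, Subgroup.index_mul_card]
  have p1 : 0 < Nat.card (Du s).range := Nat.card_pos
  have c4 : Nat.card (Du s).ker ≤ Nat.card (Nu s n).range := by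
    by_contra hlt
    push Not at hlt
    have h1 : Nat.card (Nu s n).range * Nat.card (Nu s n).ker <
        Nat.card (Du s).range * Nat.card (Du s).ker := by
      calc Nat.card (Nu s n).range * Nat.card (Nu s n).ker
          ≤ Nat.card (Nu s n).range * Nat.card (Du s).range := Nat.mul_le_mul_left _ c1
        _ < Nat.card (Du s).ker * Nat.card (Du s).range := Nat.mul_lt_mul_of_pos_right hlt p1
        _ = _ := mul_comm _ _
    omega
  have heq : (Nu s n).range = (Du s).ker := Subgroup.eq_of_le_of_card_ge hle2 c4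
  have hmem : ha.unit ∈ (Du s).ker := (mem_ker_Du s _).2 hfix
  rw [← heq] at hmem
  obtain ⟨y, hy⟩ := hmem
  refine ⟨y, ?_⟩
  have := congrArg (fun u : Aˣ => (u : A)) hy
  simp only [Nu_val] at this
  exact this

end Vale.Agent.P022.H648
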