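import Vale.Agent.P022.H567.Cft
import Vale.Agent.P022.H565.PowNear
import Vale.Agent.P022.H269.Unrv
import Vale.Agent.P022.H648.Fin

/-!
P022, block [LN]: local norms at an unramified place of a cyclic extension.
-/

open NumberField IsDedekindDomain TensorProduct Finset
open scoped Pointwise

noncomputable section

namespace Vale.Agent.P022.H648

open Vale.Agent.P022.C

/-! ### norms from `R ⊗ L` -/

section

variable {K L : Type} [Field K] [Field L] [Algebra K L] {R : Type} [Field R] [Algebra K R]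

lemma tw_tmul (g : L ≃ₐ[K] L) (r : R) (x : L) : tw R g (r ⊗ₜ[K] x) = r ⊗ₜ[K] g x := by
  simp [tw]

lemma Nm_mul {σ : L ≃ₐ[K] L} {n : ℕ} {a b : K} (ha : Nm σ n R a) (hb : Nm σ n R b) :
    Nm σ n R (a * b) := by
  obtain ⟨y, hy⟩ := ha
  obtain ⟨z, hz⟩ := hb
  refine ⟨y * z, ?_⟩
  simp only [map_mul, Finset.prod_mul_distrib, hy, hz]

lemma tw_one (y : R ⊗[K] L) : tw R (1 : L ≃ₐ[K] L) y = y := by
  induction y using TensorProduct.induction_on with
  | zero => simp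
  | tmul r x => rw [tw_tmul]; rfl
  | add a b ha hb => rw [map_add, ha, hb]

lemma Nm_inv {σ : L ≃ₐ[K] L} {n : ℕ} (hn : 0 < n) {a : K} (ha0 : a ≠ 0) (ha : Nm σ n R a) :
    Nm σ n R a⁻¹ := by
  obtain ⟨y, hy⟩ := ha
  have h1 : IsUnit (algebraMap K (R ⊗[K] L) a) := (IsUnit.mk0 a ha0).map _
  have h2 : IsUnit y := by
    rw [← hy] at h1
    refine isUnit_of_dvd_unit ?_ h1
    have := Finset.dvd_prod_of_mem (fun i => tw R (σ ^ i) y) (Finset.mem_range.2 hn)
    simpa [tw_one] using this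
  obtain ⟨u, rfl⟩ := h2
  refine ⟨(u⁻¹ : (R ⊗[K] L)ˣ), ?_⟩
  have h3 : (∏ i ∈ range n, tw R (σ ^ i) ((u⁻¹ : (R ⊗[K] L)ˣ) : R ⊗[K] L)) *
      (∏ i ∈ range n, tw R (σ ^ i) (u : R ⊗[K] L)) = 1 := by
    rw [← Finset.prod_mul_distrib]
    refine Finset.prod_eq_one fun i _ => ?_
    rw [← map_mul, Units.inv_mul, map_one]
  rw [hy] at h3
  have h4 : algebraMap K (R ⊗[K] L) a⁻¹ * algebraMap K (R ⊗[K] L) a = 1 := by
    rw [← map_mul, inv_mul_cancel₀ ha0, map_one]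
  exact h1.mul_right_cancel (h3.trans h4.symm)

lemma Nm_of {σ : L ≃ₐ[K] L} {n : ℕ} (r : R) (y : L) {c a : K}
    (hy : ∏ i ∈ range n, (σ ^ i) y = algebraMap K L c)
    (hr : r ^ n * algebraMap K R c = algebraMap K R a) : Nm σ n R a := by
  refine ⟨r ⊗ₜ y, ?_⟩
  have h1 : ∀ s : Finset ℕ, ∏ i ∈ s, tw R (σ ^ i) (r ⊗ₜ[K] y) =
      (r ^ s.card) ⊗ₜ[K] ∏ i ∈ s, (σ ^ i) y := by
    intro s
    induction s using Finset.cons_induction with
    | empty => simp [Algebra.TensorProduct.one_def]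
    | cons i s hi ih =>
      rw [Finset.prod_cons, ih, Finset.prod_cons, Finset.card_cons, tw_tmul,
        Algebra.TensorProduct.tmul_mul_tmul, pow_succ']
  rw [h1, hy, Finset.card_range, Algebra.algebraMap_eq_smul_one c, ← TensorProduct.smul_tmul,
    Algebra.smul_def, mul_comm, hr, Algebra.TensorProduct.algebraMap_apply]

end

/-! ### the Galois group -/

section

variable {K L : Type} [Field K] [NumberField K] [Field L] [NumberField L] [Algebra K L]

lemma gal {n : ℕ} {σ : L ≃ₐ[K] L} (h : Cyc K n σ) :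
    IsGalois K L ∧ ∀ g : L ≃ₐ[K] L, ∃ i : ℕ, g = σ ^ i := by
  have h1 : Nat.card (L ≃ₐ[K] L) ≤ Module.finrank K L := by
    rw [Nat.card_eq_fintype_card]
    exact AlgEquiv.card_le
  have h2 : orderOf σ ≤ Nat.card (L ≃ₐ[K] L) := orderOf_le_card
  rw [h.ord] at h2
  rw [h.rank] at h1
  have h3 : Nat.card (L ≃ₐ[K] L) = n := le_antisymm h1 h2
  refine ⟨IsGalois.of_card_aut_eq_finrank _ _ (h3.trans h.rank.symm), fun g => ?_⟩
  have h4 : Subgroup.zpowers σ = ⊤ := by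
    apply Subgroup.eq_top_of_card_eq
    rw [Nat.card_zpowers, h.ord, h3]
  have h5 : g ∈ Subgroup.zpowers σ := by rw [h4]; trivial
  rw [← mem_powers_iff_mem_zpowers] at h5
  obtain ⟨i, hi⟩ := h5
  exact ⟨i, hi.symm⟩

omit [NumberField K] [NumberField L] in
lemma smul_alg (g : L ≃ₐ[K] L) (x : 𝓞 K) :
    g • (algebraMap (𝓞 K) (𝓞 L) x) = algebraMap (𝓞 K) (𝓞 L) x := by
  apply RingOfIntegers.ext
  change g (algebraMap (𝓞 L) L (algebraMap (𝓞 K) (𝓞 L) x)) = _
  rw [← IsScalarTower.algebraMap_apply, IsScalarTower.algebraMap_apply (𝓞 K) K L, g.commutes]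
  rfl

lemma prod_smul_alg {n : ℕ} {σ : L ≃ₐ[K] L} (h : Cyc K n σ) (y : 𝓞 L) :
    ∃ c : 𝓞 K, ∏ i ∈ range n, (σ ^ i) • y = algebraMap (𝓞 K) (𝓞 L) c := by
  have := (gal h).1
  have hσ : σ ^ n = 1 := by rw [← h.ord]; exact pow_orderOf_eq_one σ
  have h1 : σ • (∏ i ∈ range n, (σ ^ i) • y) = ∏ i ∈ range n, (σ ^ i) • y := by
    rw [Finset.smul_prod']
    have h2 : ∏ i ∈ range n, σ • (σ ^ i) • y = ∏ i ∈ range n, (σ ^ (i + 1)) • y :=
      Finset.prod_congr rfl fun i _ => by rw [← mul_smul, pow_succ']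
    obtain ⟨m, rfl⟩ : ∃ m, n = m + 1 := ⟨n - 1, by have := h.pos; omega⟩
    rw [h2, Finset.prod_range_succ, hσ, Finset.prod_range_succ' (fun i => (σ ^ i) • y), pow_zero]
  have h3 : ∀ g : L ≃ₐ[K] L, g • (∏ i ∈ range n, (σ ^ i) • y) = ∏ i ∈ range n, (σ ^ i) • y := by
    intro g
    obtain ⟨i, rfl⟩ := (gal h).2 g
    induction i with
    | zero => rw [pow_zero, one_smul]
    | succ i ih => rw [pow_succ, mul_smul, h1, ih]
  obtain ⟨c, hc⟩ := Algebra.IsInvariant.isInvariant (A := 𝓞 K) (G := L ≃ₐ[K] L) _ h3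
  exact ⟨c, hc.symm⟩

omit [NumberField K] [NumberField L] in
lemma prod_coe {n : ℕ} {σ : L ≃ₐ[K] L} {y : 𝓞 L} {c : 𝓞 K}
    (h : ∏ i ∈ range n, (σ ^ i) • y = algebraMap (𝓞 K) (𝓞 L) c) :
    ∏ i ∈ range n, (σ ^ i) (y : L) = algebraMap K L (c : K) := by
  have h1 := congrArg (algebraMap (𝓞 L) L) h
  rw [map_prod, ← IsScalarTower.algebraMap_apply, IsScalarTower.algebraMap_apply (𝓞 K) K L] at h1
  exact h1

/-! ### from close norms to local norms -/

omit [NumberField L] in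
lemma near (v : HeightOneSpectrum (𝓞 K)) {n : ℕ} (hn : 0 < n) (σ : L ≃ₐ[K] L) :
    ∃ k : ℕ, ∀ (a c : K) (y : L), ∏ i ∈ range n, (σ ^ i) y = algebraMap K L c → c ≠ 0 →
      v.valuation K (a / c - 1) ≤ WithZero.exp (-(k : ℤ)) →
      Nm σ n (v.adicCompletion K) a := by
  obtain ⟨k, hk⟩ := H565.pow_near (K := K) v (n := n) hn.ne'
  refine ⟨k, fun a c y hy hc hv => ?_⟩
  obtain ⟨r, -, hr⟩ := hk (algebraMap K (v.adicCompletion K) (a / c)) (by
    rw [← map_one (algebraMap K (v.adicCompletion K)), ← map_sub, H565.valued_alg]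
    exact hv)
  refine Nm_of r y hy ?_
  rw [hr, ← map_mul, div_mul_cancel₀ _ hc]

omit [NumberField L] in
lemma of_close (v : HeightOneSpectrum (𝓞 K)) {n : ℕ} (hn : 0 < n) (σ : L ≃ₐ[K] L) {a : 𝓞 K}
    (ha : a ≠ 0) (H : ∀ k : ℕ, ∃ (y : 𝓞 L) (c : 𝓞 K),
      ∏ i ∈ range n, (σ ^ i) • y = algebraMap (𝓞 K) (𝓞 L) c ∧ c - a ∈ v.asIdeal ^ k) :
    Nm σ n (v.adicCompletion K) (a : K) := by
  obtain ⟨k, hk⟩ := near v hn σ
  have ha' : (a : K) ≠ 0 := by
    simpa using ha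
  have hva : v.valuation K (a : K) ≠ 0 := (Valuation.ne_zero_iff _).2 ha'
  obtain ⟨m, hm⟩ := WithZero.exists_exp_neg_natCast_lt hva
  obtain ⟨y, c, hy, hc⟩ := H (m + k)
  have h1 : v.valuation K ((c : K) - (a : K)) ≤ WithZero.exp (-((m + k : ℕ) : ℤ)) := by
    have h2 := (v.intValuation_le_pow_iff_mem (c - a) (m + k)).2 hc
    rw [← HeightOneSpectrum.valuation_of_algebraMap (K := K)] at h2
    have h3 : (algebraMap (𝓞 K) K (c - a)) = (c : K) - (a : K) := by rw [map_sub]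
    change v.valuation K (algebraMap (𝓞 K) K (c - a)) ≤ _ at h2
    rwa [h3] at h2
  have h1' : v.valuation K ((c : K) - (a : K)) ≤
      WithZero.exp (-(m : ℤ)) * WithZero.exp (-(k : ℤ)) := by
    rw [← WithZero.exp_add]
    refine h1.trans (le_of_eq ?_)
    congr 1
    push_cast
    ring
  have h4 : v.valuation K ((c : K) - (a : K)) < v.valuation K (a : K) := by
    refine lt_of_le_of_lt (h1.trans ?_) hm
    rw [WithZero.exp_le_exp]
    push_cast
    omega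
  have h5 : v.valuation K (c : K) = v.valuation K (a : K) := by
    have h6 := Valuation.map_add_eq_of_lt_left (v.valuation K) h4
    rwa [add_sub_cancel] at h6
  have hc0 : (c : K) ≠ 0 := by
    rw [← Valuation.ne_zero_iff (v.valuation K), h5]
    exact hva
  refine hk a c y (prod_coe hy) hc0 ?_
  have h7 : (a : K) / (c : K) - 1 = ((a : K) - (c : K)) / (c : K) := by
    field_simp
  rw [h7, map_div₀, h5, Valuation.map_sub_swap]
  have hpos : 0 < v.valuation K (a : K) := zero_lt_iff.2 hva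
  rw [div_le_iff₀ hpos, mul_comm]
  exact h1'.trans (mul_le_mul_left hm.le _)

/-! ### units -/

omit [NumberField K] [NumberField L] in
lemma mem_dn {P : Ideal (𝓞 L)} {v : HeightOneSpectrum (𝓞 K)} (hPv : dn K P = v.asIdeal)
    (x : 𝓞 K) : algebraMap (𝓞 K) (𝓞 L) x ∈ P ↔ x ∈ v.asIdeal := by
  rw [← hPv, Ideal.mem_comap]

lemma unit_close {n : ℕ} {σ : L ≃ₐ[K] L} (h : Cyc K n σ) (v : HeightOneSpectrum (𝓞 K))
    {P : Ideal (𝓞 L)} (hP : P.IsPrime) (hPv : dn K P = v.asIdeal) (hu : Unr σ P) {a : 𝓞 K}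
    (ha : a ∉ v.asIdeal) (k : ℕ) : ∃ (y : 𝓞 L) (c : 𝓞 K),
      ∏ i ∈ range n, (σ ^ i) • y = algebraMap (𝓞 K) (𝓞 L) c ∧ c - a ∈ v.asIdeal ^ k := by
  have hgal := (gal h).1
  -- `k > 0`
  wlog hk : 0 < k generalizing k with hw
  · obtain ⟨y, c, h1, h2⟩ := hw (k + 1) (Nat.succ_pos k)
    exact ⟨y, c, h1, Ideal.pow_le_pow_right (Nat.le_succ k) h2⟩
  set I : Ideal (𝓞 L) := (v.asIdeal ^ k).map (algebraMap (𝓞 K) (𝓞 L)) with hI
  have hinj : Function.Injective (algebraMap (𝓞 K) (𝓞 L)) :=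
    FaithfulSMul.algebraMap_injective _ _
  have hIbot : I ≠ ⊥ := by
    rw [hI, Ne, Ideal.map_eq_bot_iff_of_injective hinj]
    exact pow_ne_zero _ v.ne_bot
  have hfin : Finite (𝓞 L ⧸ I) := Ideal.finiteQuotientOfFreeOfNeBot I hIbot
  have hIP : I ≤ P := by
    rw [hI, Ideal.map_le_iff_le_comap]
    exact (Ideal.pow_le_self hk.ne').trans (le_of_eq hPv.symm)
  set φ : 𝓞 L ≃+* 𝓞 L := MulSemiringAction.toRingEquiv (L ≃ₐ[K] L) (𝓞 L) σ with hφ
  have hφI : I = I.map (φ : 𝓞 L →+* 𝓞 L) := by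
    rw [hI, Ideal.map_map]
    congr 1
    ext x
    exact congrArg _ (smul_alg σ x).symm
  set s : (𝓞 L ⧸ I) ≃+* (𝓞 L ⧸ I) := Ideal.quotientEquiv I I φ hφI with hs
  have hs1 : ∀ x : 𝓞 L, s (Ideal.Quotient.mk I x) = Ideal.Quotient.mk I (σ • x) := fun x => rfl
  have hsi : ∀ (i : ℕ) (x : 𝓞 L),
      (s ^ i) (Ideal.Quotient.mk I x) = Ideal.Quotient.mk I ((σ ^ i) • x) := by
    intro i
    induction i with
    | zero => intro x; rw [pow_zero, pow_zero, one_smul]; rfl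
    | succ i ih => intro x; rw [pow_succ, RingAut.mul_apply, hs1, ih, pow_succ, mul_smul]
  have hσ : σ ^ n = 1 := by rw [← h.ord]; exact pow_orderOf_eq_one σ
  have hFr : Fr s n (P.map (Ideal.Quotient.mk I)) := by
    refine ⟨h.pos, ?_, ?_, ?_, ?_⟩
    · ext x
      obtain ⟨x, rfl⟩ := Ideal.Quotient.mk_surjective x
      rw [hsi, hσ, one_smul]
      rfl
    · exact Ideal.map_isPrime_of_surjective Ideal.Quotient.mk_surjective (by
        rw [Ideal.mk_ker]; exact hIP)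
    · intro m hm
      set Q : Ideal (𝓞 L) := m.comap (Ideal.Quotient.mk I) with hQ
      have hQp : Q.IsPrime := Ideal.IsPrime.comap _ (hK := hm.isPrime)
      have h1 : v.asIdeal ^ k ≤ Q.under (𝓞 K) := by
        have h2 : I ≤ Q := by
          intro x hx
          rw [hQ, Ideal.mem_comap, Ideal.Quotient.eq_zero_iff_mem.2 hx]
          exact m.zero_mem
        exact Ideal.map_le_iff_le_comap.1 h2
      have h3 : v.asIdeal ≤ Q.under (𝓞 K) :=
        Ideal.IsPrime.le_of_pow_le h1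
      have h4 : v.asIdeal = Q.under (𝓞 K) :=
        v.isMaximal.eq_of_le (Ideal.IsPrime.ne_top inferInstance) h3
      have h5 : Q.under (𝓞 K) = P.under (𝓞 K) := h4.symm.trans hPv.symm
      obtain ⟨g, hg⟩ := Algebra.IsInvariant.exists_smul_of_under_eq (𝓞 K) (𝓞 L) (L ≃ₐ[K] L)
        Q P h5
      obtain ⟨i, rfl⟩ := (gal h).2 g
      refine ⟨i, fun x hx => ?_⟩
      obtain ⟨x, rfl⟩ := Ideal.Quotient.mk_surjective x
      rw [hsi, Ideal.mem_quotient_iff_mem hIP, hg]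
      exact Ideal.smul_mem_pointwise_smul _ _ _ hx
    · intro i h1 h2
      by_contra hc
      push Not at hc
      have h3 : σ ^ i = 1 := by
        apply hu
        intro x
        have h4 := hc (Ideal.Quotient.mk I x)
        rw [hsi, ← map_sub, Ideal.mem_quotient_iff_mem hIP] at h4
        exact h4
      have h4 := orderOf_dvd_of_pow_eq_one h3
      rw [h.ord] at h4
      exact absurd (Nat.le_of_dvd h1 h4) (by omega)
  have hunit : IsUnit (Ideal.Quotient.mk I (algebraMap (𝓞 K) (𝓞 L) a)) := by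
    by_contra hc
    obtain ⟨m, hm, hxm⟩ := exists_max_ideal_of_mem_nonunits
      (a := Ideal.Quotient.mk I (algebraMap (𝓞 K) (𝓞 L) a)) hc
    obtain ⟨i, hi⟩ := hFr.tr m hm
    have h1 := hi _ hxm
    rw [hsi, smul_alg, Ideal.mem_quotient_iff_mem hIP, mem_dn hPv] at h1
    exact ha h1
  obtain ⟨y, hy⟩ := fixed_norm hFr hunit (by rw [hs1, smul_alg])
  obtain ⟨y, rfl⟩ := Ideal.Quotient.mk_surjective y
  obtain ⟨c, hc⟩ := prod_smul_alg h y
  refine ⟨y, c, hc, ?_⟩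
  have h1 : ∏ i ∈ range n, (s ^ i) (Ideal.Quotient.mk I y) =
      Ideal.Quotient.mk I (∏ i ∈ range n, (σ ^ i) • y) := by
    rw [map_prod]
    exact Finset.prod_congr rfl fun i _ => hsi i y
  rw [h1, hc, Ideal.Quotient.eq, ← map_sub] at hy
  rw [← Ideal.comap_map_eq_self_of_faithfullyFlat (B := 𝓞 L) (v.asIdeal ^ k)]
  exact hy

/-! ### split places -/

lemma split_close {n : ℕ} {σ : L ≃ₐ[K] L} (h : Cyc K n σ) (v : HeightOneSpectrum (𝓞 K))
    {P : Ideal (𝓞 L)} (hP : P.IsPrime) (hPv : dn K P = v.asIdeal) (hu : Unr σ P)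
    (hd : ∀ i : ℕ, Ideal.comap (RingOfIntegers.mapRingHom ((σ ^ i : L ≃ₐ[K] L) : L →+* L)) P = P →
      σ ^ i = 1) (a : 𝓞 K) (k : ℕ) : ∃ (y : 𝓞 L) (c : 𝓞 K),
      ∏ i ∈ range n, (σ ^ i) • y = algebraMap (𝓞 K) (𝓞 L) c ∧ c - a ∈ v.asIdeal ^ k := by
  have hgal := (gal h).1
  have hPbot : P ≠ ⊥ := by
    rintro rfl
    apply v.ne_bot
    rw [← hPv, eq_bot_iff]
    intro x hx
    rw [Ideal.mem_comap, Ideal.mem_bot] at hx
    exact (FaithfulSMul.algebraMap_eq_zero_iff _ _).1 hx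
  set ψ : ℕ → (𝓞 L →+* 𝓞 L) := fun i =>
    ((MulSemiringAction.toRingEquiv (L ≃ₐ[K] L) (𝓞 L) (σ ^ i) : 𝓞 L ≃+* 𝓞 L) : 𝓞 L →+* 𝓞 L)
    with hψ
  have hψx : ∀ i x, ψ i x = (σ ^ i) • x := fun i x => rfl
  set Q : ℕ → Ideal (𝓞 L) := fun i => P.comap (ψ i) with hQ
  have hQm : ∀ i x, x ∈ Q i ↔ (σ ^ i) • x ∈ P := fun i x => Iff.rfl
  have hQmax : ∀ i, (Q i).IsMaximal := by
    intro i
    have h1 : P.IsMaximal := hP.isMaximal hPbot
    exact Ideal.comap_isMaximal_of_surjective _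
      (MulSemiringAction.toRingEquiv (L ≃ₐ[K] L) (𝓞 L) (σ ^ i)).surjective
  have hne : ∀ i j, i < j → j < n → Q i ≠ Q j := by
    intro i j h1 h2 h3
    have h4 : σ ^ (j - i) = 1 := by
      apply hd
      ext x
      have h5 : x ∈ Ideal.comap (RingOfIntegers.mapRingHom
          ((σ ^ (j - i) : L ≃ₐ[K] L) : L →+* L)) P ↔ (σ ^ (j - i)) • x ∈ P := Iff.rfl
      rw [h5]
      have h6 : x = (σ ^ i) • ((σ ^ i)⁻¹ • x) := by rw [smul_inv_smul]
      have h7 : (σ ^ (j - i)) • x = (σ ^ j) • ((σ ^ i)⁻¹ • x) := by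
        conv_lhs => rw [h6]
        rw [← mul_smul, ← pow_add]
        congr 2
        omega
      rw [h7]
      conv_rhs => rw [h6]
      rw [← hQm, ← hQm, h3]
    have h5 := orderOf_dvd_of_pow_eq_one h4
    rw [h.ord] at h5
    exact absurd (Nat.le_of_dvd (by omega) h5) (by omega)
  have hcop : Pairwise (Function.onFun IsCoprime (fun i : Fin n => (Q i) ^ k)) := by
    intro i j hij
    have hne' : Q i ≠ Q j := by
      rcases lt_trichotomy (i : ℕ) j with h1 | h1 | h1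
      · exact hne i j h1 j.2
      · exact absurd (Fin.ext h1) hij
      · exact (hne j i h1 i.2).symm
    have h1 := hQmax i
    have h2 := hQmax j
    exact (Ideal.isCoprime_of_isMaximal hne').pow
  obtain ⟨y, hy⟩ := Ideal.exists_forall_sub_mem_ideal hcop
    (fun i => if (i : ℕ) = 0 then algebraMap (𝓞 K) (𝓞 L) a else 1)
  have hy' : ∀ i < n, (σ ^ i) • y - (if i = 0 then algebraMap (𝓞 K) (𝓞 L) a else 1) ∈ P ^ k := by
    intro i hi
    have h1 := hy ⟨i, hi⟩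
    have h2 := Ideal.le_comap_pow (K := P) (ψ i) k h1
    rw [Ideal.mem_comap, map_sub, hψx, hψx] at h2
    have h3 : (σ ^ i) • (if ((⟨i, hi⟩ : Fin n) : ℕ) = 0 then algebraMap (𝓞 K) (𝓞 L) a
        else (1 : 𝓞 L)) = if i = 0 then algebraMap (𝓞 K) (𝓞 L) a else 1 := by
      change (σ ^ i) • (if i = 0 then algebraMap (𝓞 K) (𝓞 L) a else (1 : 𝓞 L)) = _
      split_ifs with h4
      · exact smul_alg _ _
      · exact smul_one _
    rw [h3] at h2
    exact h2
  obtain ⟨c, hc⟩ := prod_smul_alg h y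
  refine ⟨y, c, hc, ?_⟩
  have h1 : algebraMap (𝓞 K) (𝓞 L) (c - a) ∈ P ^ k := by
    rw [map_sub, ← Ideal.Quotient.eq, ← hc, map_prod]
    have h2 : ∀ i ∈ range n, Ideal.Quotient.mk (P ^ k) ((σ ^ i) • y) =
        Ideal.Quotient.mk (P ^ k) (if i = 0 then algebraMap (𝓞 K) (𝓞 L) a else 1) :=
      fun i hi => Ideal.Quotient.eq.2 (hy' i (Finset.mem_range.1 hi))
    rw [Finset.prod_congr rfl h2, ← map_prod, Finset.prod_ite_eq',
      if_pos (Finset.mem_range.2 h.pos)]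
  let w : HeightOneSpectrum (𝓞 L) := ⟨P, hP, hPbot⟩
  have hI : ∀ g : L ≃ₐ[K] L, (∀ x : 𝓞 L, g • x - x ∈ w.asIdeal) → g = 1 := by
    intro g hg
    obtain ⟨i, rfl⟩ := (gal h).2 g
    exact hu i hg
  have h2 := H269.liesOver_dn v w hPv
  have h3 := HeightOneSpectrum.valuation_liesOver L v w (((c - a : 𝓞 K)) : K)
  rw [H269.ram_one v w hPv hI, pow_one] at h3
  rw [← v.intValuation_le_pow_iff_mem, ← HeightOneSpectrum.valuation_of_algebraMap (K := K)]
  have h4 := (w.intValuation_le_pow_iff_mem _ k).2 h1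
  rw [← HeightOneSpectrum.valuation_of_algebraMap (K := L)] at h4
  have h5 : algebraMap K L ((c - a : 𝓞 K) : K) =
      algebraMap (𝓞 L) L (algebraMap (𝓞 K) (𝓞 L) (c - a)) := by
    rw [← IsScalarTower.algebraMap_apply, ← IsScalarTower.algebraMap_apply]
  rw [h5] at h3
  change v.valuation K ((c - a : 𝓞 K) : K) ≤ _
  rw [h3]
  exact h4

/-! ### the block -/

/-- **[LN]** local norms at an unramified place -/
theorem LN : LNStmt := by
  intro K L _ _ _ _ _ n σ h v P hP hPv hu a ha0 ha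
  rcases ha with ha | hd
  · -- `a` is a unit at `v`
    obtain ⟨x, ⟨d, hd⟩, hxd⟩ := HeightOneSpectrum.exists_primeCompl_mul_eq_of_integer (R := 𝓞 K)
      v a ha.le
    have hd' : d ∉ v.asIdeal := hd
    have hvd : v.valuation K (algebraMap (𝓞 K) K d) = 1 := by
      rw [HeightOneSpectrum.valuation_eq_one_iff_notMem]
      exact hd'
    have hx' : x ∉ v.asIdeal := by
      rw [← HeightOneSpectrum.valuation_eq_one_iff_notMem (K := K), ← hxd, map_mul, ha, one_mul]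
      exact hvd
    have hd0 : d ≠ 0 := fun h0 => hd' (h0 ▸ v.asIdeal.zero_mem)
    have hx0 : x ≠ 0 := fun h0 => hx' (h0 ▸ v.asIdeal.zero_mem)
    have hdK : (d : K) ≠ 0 := by simpa using hd0
    have n1 := of_close v h.pos σ hd0 (unit_close h v hP hPv hu hd')
    have n2 := of_close v h.pos σ hx0 (unit_close h v hP hPv hu hx')
    have h1 : a = (x : K) * (d : K)⁻¹ := by
      rw [eq_mul_inv_iff_mul_eq₀ hdK]
      exact hxd
    rw [h1]
    exact Nm_mul n2 (Nm_inv h.pos hdK n1)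
  · -- `v` is split
    obtain ⟨x, d, hd0, hxd⟩ := IsFractionRing.div_surjective (A := 𝓞 K) a
    have hd1 : d ≠ 0 := nonZeroDivisors.ne_zero hd0
    have hx0 : x ≠ 0 := by
      rintro rfl
      apply ha0
      rw [← hxd, map_zero, zero_div]
    have hdK : (d : K) ≠ 0 := by simpa using hd1
    have n1 := of_close v h.pos σ hd1 (split_close h v hP hPv hu hd d)
    have n2 := of_close v h.pos σ hx0 (split_close h v hP hPv hu hd x)
    rw [← hxd, div_eq_mul_inv]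
    exact Nm_mul n2 (Nm_inv h.pos hdK n1)

end

end Vale.Agent.P022.H648
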